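import Vale.Agent.P154.Anti.Sliver
import Vale.Agent.P154.Anti.WindowPair

/-!
# Checks with exponents of zero weight, and windows below a supercritical point

Terms of zero coefficient are dropped before they are read off a box certificate, so every
job may use one common list of exponents. A supercritical point at `e` bounds every window
between `e` and the parameter where its degree becomes critical.
-/

namespace Vale.Agent.P154.Anti.Top

open Finset Filter Topology Box Vale.Agent.P154.Tree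

variable {n : ℕ}

/-- The terms of nonzero coefficient. -/
def nz (ts : List NTerm) : List NTerm :=
  ts.filter fun t => decide (t.c ≠ 0)

theorem sum_nz (u : Fin 3 → ℝ) : ∀ ts : List NTerm,
    ((nz ts).map fun t => t.val u).sum = (ts.map fun t => t.val u).sum
  | [] => rfl
  | t :: ts => by
    have h := sum_nz u ts
    unfold nz at h ⊢
    rcases eq_or_ne t.c 0 with hc | hc
    · rw [List.filter_cons_of_neg (by simp [hc]), h]
      simp [NTerm.val, hc]
    · rw [List.filter_cons_of_pos (by simp [hc]), List.map_cons, List.sum_cons, h]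
      simp

/-- The check of a window on the terms of nonzero coefficient. -/
def windowCheckZ (C : Cfg) (E : Fin n → N3) (a b : ℚ) : List (SVec n) → List WData → Bool
  | [], _ => true
  | _ :: _, [] => false
  | v :: vs, w :: ws =>
    decide (w.p < w.r) && decide (b ≤ w.p ∧ w.r < 0 ∨ w.r ≤ a ∧ -(1 / 2) ≤ w.p)
      && nodeOk C w.ia w.Ma (nz (allTerms E v a w.p w.r)) v.k
      && nodeOk C w.ib w.Mb (nz (allTerms E v b w.p w.r)) v.k
      && windowCheckZ C E a b vs ws

theorem windowCheckZ_split {C : Cfg} {E : Fin n → N3} {a b : ℚ} :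
    ∀ (i : ℕ) {V : List (SVec n)} {W : List WData},
      windowCheckZ C E a b (V.take i) (W.take i) = true →
      windowCheckZ C E a b (V.drop i) (W.drop i) = true → windowCheckZ C E a b V W = true
  | 0, _, _, _, h => h
  | _ + 1, [], _, _, _ => rfl
  | _ + 1, _ :: _, [], h, _ => by simp [windowCheckZ] at h
  | i + 1, v :: vs, w :: ws, h1, h2 => by
    simp only [List.take_succ_cons, List.drop_succ_cons, windowCheckZ, Bool.and_eq_true] at h1 h2 ⊢
    exact ⟨h1.1, windowCheckZ_split i h1.2 h2⟩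

/-- A checked window gives the node inequalities. -/
theorem windowPW_of_checkZ {C : Cfg} (hT : Nonneg C) (hb : basisOk C = true) (E : Fin n → N3)
    (a b : ℚ) : ∀ (V : List (SVec n)) (W : List WData), windowCheckZ C E a b V W = true →
      WindowPW (fun j => expo3 (E j)) V a b
  | [], _, _ => fun v hv => absurd hv List.not_mem_nil
  | _ :: _, [], h => by simp [windowCheckZ] at h
  | v :: vs, w :: ws, h => by
    simp only [windowCheckZ, Bool.and_eq_true, decide_eq_true_eq] at h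
    obtain ⟨⟨⟨⟨hpr, hout⟩, ha⟩, hbb⟩, hrest⟩ := h
    intro v' hv'
    rcases List.mem_cons.1 hv' with rfl | hv'
    · refine ⟨w.p, w.r, by exact_mod_cast hpr, ?_, fun u u0 u1 => ?_, fun u u0 u1 => ?_⟩
      · rcases hout with ⟨h1, h2⟩ | ⟨h1, h2⟩
        · exact Or.inl ⟨by exact_mod_cast h1, by exact_mod_cast h2⟩
        · have h2' : ((-(1 / 2) : ℚ) : ℝ) ≤ (w.p : ℝ) := by exact_mod_cast h2
          push_cast at h2'
          exact Or.inr ⟨by exact_mod_cast h1, h2'⟩
      · exact (sum_allTerms E v' a w.p w.r u) ▸ sum_nz u (allTerms E v' a w.p w.r) ▸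
          nodeOk_sound hT hb ha u0 u1
      · exact (sum_allTerms E v' b w.p w.r u) ▸ sum_nz u (allTerms E v' b w.p w.r) ▸
          nodeOk_sound hT hb hbb u0 u1
    · exact windowPW_of_checkZ hT hb E a b vs ws hrest v' hv'

/-- The check at the supercritical point on the terms of nonzero coefficient. -/
def domCheckZ (C : Cfg) (E : Fin n → N3) (e D : ℚ) : List (SVec n) → List WData → Bool
  | [], _ => true
  | _ :: _, [] => false
  | v :: vs, w :: ws =>
    nodeOk C w.ia w.Ma (nz (domTerms E v e D)) v.k && domCheckZ C E e D vs ws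

theorem domCheckZ_split {C : Cfg} {E : Fin n → N3} {e D : ℚ} :
    ∀ (i : ℕ) {V : List (SVec n)} {W : List WData},
      domCheckZ C E e D (V.take i) (W.take i) = true →
      domCheckZ C E e D (V.drop i) (W.drop i) = true → domCheckZ C E e D V W = true
  | 0, _, _, _, h => h
  | _ + 1, [], _, _, _ => rfl
  | _ + 1, _ :: _, [], h, _ => by simp [domCheckZ] at h
  | i + 1, v :: vs, w :: ws, h1, h2 => by
    simp only [List.take_succ_cons, List.drop_succ_cons, domCheckZ, Bool.and_eq_true] at h1 h2 ⊢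
    exact ⟨h1.1, domCheckZ_split i h1.2 h2⟩

/-- Soundness of the check at the supercritical point. -/
theorem pw_of_domCheckZ {C : Cfg} (hT : Nonneg C) (hb : basisOk C = true) (E : Fin n → N3)
    (e D : ℚ) : ∀ (V : List (SVec n)) (W : List WData), domCheckZ C E e D V W = true → ∀ v ∈ V,
      PW 3 (e : ℝ) (fun j => expo3 (E j)) (fun j => (v.c j : ℝ)) (fun j => (v.b j : ℝ) * (D : ℝ))
        v.k
  | [], _, _ => fun v hv => absurd hv List.not_mem_nil
  | _ :: _, [], h => by simp [domCheckZ] at h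
  | v :: vs, w :: ws, h => by
    simp only [domCheckZ, Bool.and_eq_true] at h
    intro v' hv'
    rcases List.mem_cons.1 hv' with rfl | hv'
    · intro u u0 u1
      exact (nodeOk_sound hT hb h.1 u0 u1).trans_eq
        (congrArg (· + _) ((sum_nz u _).trans (sum_domTerms E v' e D u)))
    · exact pw_of_domCheckZ hT hb E e D vs ws h.2 v' hv'

/-- Two adjacent windows on three nodes, given their node inequalities. -/
theorem tendsto_of_pair {A : Fin n → Fin 3 → ℝ} (hA : ∀ j i, 0 ≤ A j i)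
    (hA1 : ∀ j, ∑ i, A j i = 1) {r : Fin n} {g : ℝ} (hg : 0 < g) (hg0 : g ≤ A r 0)
    (hg1 : g ≤ A r 1) {a m b : ℝ} (hn : -(1 / 2) ≤ a ∧ a < m ∧ m < b ∧ b < 0)
    {V : List (SVec n)} (hL : WindowPW A V a m) (hR : WindowPW A V m b) {D x0 : ℚ}
    (hD : 1 ≤ (D : ℝ) * b ^ 2) {Ks M : ℕ} (t : STree n)
    (hck : sCheck (genP D Ks M) V r x0 t (fun _ => 0) (fun _ => D) = true)
    (hsmall : ∀ d lam : ℝ, a ≤ lam → lam ≤ b → d * lam ^ 2 = 1 →
      SmallExcl A (fun y => 1 - Real.exp (-(d * y))) r x0 lam d)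
    {d mu : ℝ} (hd1 : 1 ≤ d * a ^ 2) (hd2 : d * b ^ 2 ≤ 1) (hmu : mu ≤ 0)
    (hks : d * mu ^ 2 ≤ 1) : Tendsto (adv 3 (poissonLaw d) mu) atTop (𝓝 0) := by
  obtain ⟨ha, ham, hmb, hb0⟩ := hn
  have hdD : d ≤ (D : ℝ) :=
    le_of_mul_le_mul_right (hd2.trans hD) (pow_two_pos_of_ne_zero hb0.ne)
  rcases le_total (d * m ^ 2) 1 with h | h
  · exact tendsto_adv_poisson_of_window hA hA1 hg hg0 hg1 ha ham (hmb.trans hb0) hL t hck
      (fun d' lam l1 l2 hl => hsmall d' lam l1 (l2.trans hmb.le) hl) hd1 h hdD hmu hks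
  · exact tendsto_adv_poisson_of_window hA hA1 hg hg0 hg1 (ha.trans ham.le) hmb hb0 hR t hck
      (fun d' lam l1 l2 hl => hsmall d' lam (ham.le.trans l1) l2 hl) h hd2 hdD hmu hks

/-- A window below the bound of the marked defect at a supercritical point `(D, e)` with `e` at
most the lower end of the window. -/
theorem tendsto_below_node {A : Fin n → Fin 3 → ℝ} (hA : ∀ j i, 0 ≤ A j i)
    (hA1 : ∀ j, ∑ i, A j i = 1) {r : Fin n} {m : ℝ} (hm : 0 < m) (hm0 : m ≤ A r 0)
    (hm1 : m ≤ A r 1) {e a b : ℝ} (he : -(1 / 2) ≤ e) (hea : e ≤ a) (hab : a < b) (hb : b < 0)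
    {D th1 : ℚ} (hD : 1 ≤ (D : ℝ) * b ^ 2) {V1 : List (SVec n)}
    (hN : ∀ v ∈ V1, PW 3 e A (fun j => (v.c j : ℝ)) (fun j => (v.b j : ℝ) * (D : ℝ)) (v.k : ℝ))
    {K1 M1 : ℕ} (t1 : STree n)
    (hck1 : sCheck (genP D K1 M1) V1 r th1 t1 (fun _ => 0) (fun _ => D) = true)
    {V : List (SVec n)} (hW : WindowPW A V a b) {Dw x0 : ℚ} {Ks M : ℕ} (t : STree n)
    (hth : th1 ≤ Dw) (hDD : D ≤ Dw)
    (hck : sCheck (genP Dw Ks M) V r x0 t (fun _ => 0) (Function.update (fun _ => Dw) r th1)
      = true)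
    (hsmall : ∀ d lam : ℝ, a ≤ lam → lam ≤ b → d * lam ^ 2 = 1 →
      SmallExcl A (fun y => 1 - Real.exp (-(d * y))) r x0 lam d)
    {d mu : ℝ} (hd1 : 1 ≤ d * a ^ 2) (hd2 : d * b ^ 2 ≤ 1) (hmu : mu ≤ 0)
    (hks : d * mu ^ 2 ≤ 1) : Tendsto (adv 3 (poissonLaw d) mu) atTop (𝓝 0) := by
  obtain ⟨hl, l1, l2⟩ := crit_mem hab hb hd1 hd2
  set lam := -(1 / Real.sqrt d)
  have ha : -(1 / 2) ≤ a := he.trans hea
  have hd : 0 ≤ d := by
    by_contra hn
    nlinarith [mul_nonpos_of_nonpos_of_nonneg (le_of_lt (not_le.1 hn)) (sq_nonneg lam)]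
  have hb2 : 0 < b ^ 2 := pow_two_pos_of_ne_zero hb.ne
  have hdD : d ≤ (D : ℝ) := le_of_mul_le_mul_right (hd2.trans hD) hb2
  have hdW : d ≤ (Dw : ℝ) := hdD.trans (by exact_mod_cast hDD)
  have hDpos : 0 ≤ (D : ℝ) := hd.trans hdD
  have he0 : e < 0 := hea.trans_lt (hab.trans hb)
  have hadme : Adm 3 e := adm_three he (by linarith)
  have hadm : Adm 3 lam := adm_three (ha.trans l1) (by linarith)
  obtain ⟨L, y, hL, hy0, hy1, hy, H⟩ := exists_limit_system (q := 3) (by norm_num)
    (isLaw_poissonLaw hd) hadm (gen_poissonLaw d) (by fun_prop) hA hA1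
  obtain ⟨L', y', hL', hy0', hy1', hy', H'⟩ := exists_limit_system (q := 3) (by norm_num)
    (isLaw_poissonLaw hDpos) hadme (gen_poissonLaw (D : ℝ)) (by fun_prop) hA hA1
  have hth1 := exclude_of_tree (G := genP D K1 M1) (genP_valid D K1 M1) V1 hN t1 hck1
    hDpos le_rfl hL' hy0' hy1' H'
  have hc1 : lam / e ≤ 1 := by rw [div_le_one_of_neg he0]; exact hea.trans l1
  have hc0 : 0 ≤ lam / e := div_nonneg_of_nonpos (l2.trans hb.le) he0.le
  have hyr : y r ≤ y' r := le_of_tendsto_of_tendsto' (hy r) (hy' r) fun k => by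
    have h := mean_phi_edge_le (hA r) (hA1 r) hadme hd hdD hc0 hc1 k
    rwa [div_mul_cancel₀ lam he0.ne] at h
  have hyth : d * y r ≤ (th1 : ℝ) := (mul_le_mul hdD hyr (hy0 r) hDpos).trans hth1
  have hsc : d * y r ≤ (x0 : ℝ) := by
    refine sCheck_sound (genP_valid Dw Ks M) (z := fun j => d * y j) (fun v hv => ?_) t _ _ hck
      fun j => ?_
    · refine (H _ _ _ (hW.pw hA hA1 ha hab hb l1 l2 hl v hv)).trans_eq ?_
      simp only [SVec.eval]
      congr 1
      refine sum_congr rfl fun j _ => ?_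
      rw [hL j]
      show _ = _ * (1 - Real.exp (-(d * y j))) + _
      ring
    · rcases eq_or_ne j r with rfl | hj
      · simp only [Function.update_self]
        exact ⟨le_rfl, by simpa using mul_nonneg hd (hy0 j), hyth, hth⟩
      · simp only [Function.update_of_ne hj]
        exact ⟨le_rfl, by simpa using mul_nonneg hd (hy0 j),
          (mul_le_of_le_one_right hd (hy1 j)).trans hdW, le_rfl⟩
  have hzero := hsmall d lam l1 l2 hl L y hL hy0 hy1 hsc H
  have hlim := tendsto_adv_of_limit_zero (isLaw_poissonLaw hd) hadm (hA r) (hA1 r)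
    (fun u u0 u1 => sqDev_le_phi_shrink (hA r) (hA1 r) hm hm0 hm1 (ha.trans l1) l2 hb u0 u1)
    (hzero ▸ hy r)
  refine tendsto_adv_of_abs_le (isLaw_poissonLaw hd) hadm
    (mul_nonneg_of_nonpos_of_nonpos hmu (l2.trans hb.le)) ?_ hlim
  rw [← sq_le_sq]
  nlinarith

end Vale.Agent.P154.Anti.Top
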